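import Vale.Agent.P329.H67.Defs
import Mathlib.Data.Set.Finite.List

/-!
# P329 / windows which are no proper powers: occurrences in a class modulo their length
-/

set_option linter.all false

namespace Vale.Agent.P329.H67

open Vale.Agent.P329

variable {α : Type}

/-- pending letters -/
abbrev Pn (α : Type) (N : ℕ) := {Z : List (Option α) // Z.length < N}

theorem pn_finite (α : Type) [Finite α] (N : ℕ) : Finite (Pn α N) :=
  (List.finite_length_lt (Option α) N).to_subtype

/-- the block is `R` -/
def IsB {N : ℕ} (R : Fin N → Option α) (L : List (Option α)) : Prop :=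
  ∀ i : Fin N, L.getD i.val none = R i

open Classical in
/-- step of the block automaton, blocks `R` silent if `T` -/
noncomputable def bs {N : ℕ} (hN : 0 < N) (R : Fin N → Option α) (T : Bool) (Z : Pn α N) (b : α) :
    Option (Pn α N) :=
  if h : (some b :: Z.1).length < N then some ⟨some b :: Z.1, h⟩
  else if T = true ∧ IsB R (some b :: Z.1) then some ⟨[], hN⟩ else none

section

variable {N : ℕ} {hN : 0 < N} {R : Fin N → Option α} {T : Bool}

theorem bs_lt {Z : Pn α N} {b : α} (h : (some b :: Z.1).length < N) :
    bs hN R T Z b = some ⟨some b :: Z.1, h⟩ := dif_pos h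

theorem bs_sil {Z : Pn α N} {b : α} (h : ¬ (some b :: Z.1).length < N)
    (h2 : T = true ∧ IsB R (some b :: Z.1)) : bs hN R T Z b = some ⟨[], hN⟩ :=
  (dif_neg h).trans (if_pos h2)

theorem bs_ev {Z : Pn α N} {b : α} (h : ¬ (some b :: Z.1).length < N)
    (h2 : ¬ (T = true ∧ IsB R (some b :: Z.1))) : bs hN R T Z b = none :=
  (dif_neg h).trans (if_neg h2)

/-- history -/
def hs (w : List α) (S : List (Option α)) : List (Option α) := w.reverse.map some ++ S

theorem hs_snoc (w : List α) (b : α) (S : List (Option α)) :
    hs (w ++ [b]) S = some b :: hs w S := by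
  simp [hs]

theorem run_snoc {σ : Type} {δ : σ → α → Option σ} {s t : σ} {w : List α} {b : α}
    (h : run δ s (w ++ [b]) = some t) : ∃ s', run δ s w = some s' ∧ δ s' b = some t := by
  obtain ⟨s', h1, h2⟩ := run_append_eq_some h
  obtain ⟨s'', h3, h4⟩ := run_cons_eq_some h2
  refine ⟨s', h1, ?_⟩
  rw [h3]; exact h4

theorem getD_take {β : Type} (L : List β) (d : β) {i n : ℕ} (h : i < n) :
    (L.take n).getD i d = L.getD i d := by
  rw [List.getD_eq_getElem?_getD, List.getD_eq_getElem?_getD, List.getElem?_take, if_pos h]

theorem run_inv {s : Pn α N} (w : List α) : ∀ t : Pn α N, run (bs hN R T) s w = some t →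
    (t.1 = (hs w s.1).take t.1.length ∧ (w.length + s.1.length) % N = t.1.length) ∧
    ∀ e, 0 < e → e ≤ w.length → N ∣ e + s.1.length → IsB R (hs (w.take e) s.1) := by
  induction w using List.reverseRecOn with
  | nil =>
    intro t h
    cases h
    refine ⟨⟨?_, ?_⟩, ?_⟩
    · simp [hs]
    · simp [Nat.mod_eq_of_lt s.2]
    · intro e h1 h2; simp at h2; omega
  | append_singleton w b ih =>
    intro t h
    obtain ⟨t', h1, h2⟩ := run_snoc h
    obtain ⟨⟨i1, i2⟩, i3⟩ := ih t' h1
    have key : ∀ e, 0 < e → e ≤ (w ++ [b]).length → N ∣ e + s.1.length →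
        (¬ (e ≤ w.length) → IsB R (hs (w ++ [b]) s.1)) →
        IsB R (hs ((w ++ [b]).take e) s.1) := by
      intro e h3 h4 h5 h6
      by_cases h7 : e ≤ w.length
      · rw [List.take_append_of_le_length h7]
        exact i3 e h3 h7 h5
      · have h8 : e = (w ++ [b]).length := by
          rw [List.length_append, List.length_singleton] at h4 ⊢; omega
        rw [h8, List.take_length]
        exact h6 h7
    have hcons : (some b :: t'.1) = (hs (w ++ [b]) s.1).take (t'.1.length + 1) := by
      rw [hs_snoc, List.take_succ_cons, ← i1]
    have ht' := t'.2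
    have hl : (some b :: t'.1).length = t'.1.length + 1 := List.length_cons
    have hmod : ((w ++ [b]).length + s.1.length) % N = (t'.1.length + 1) % N := by
      rw [List.length_append, List.length_singleton,
        show w.length + 1 + s.1.length = (w.length + s.1.length) + 1 by omega, Nat.add_mod,
        i2, Nat.add_mod_mod]
    by_cases h3 : (some b :: t'.1).length < N
    · rw [bs_lt h3] at h2
      cases h2
      refine ⟨⟨?_, ?_⟩, ?_⟩
      · show some b :: t'.1 = _
        rw [show (some b :: t'.1).length = t'.1.length + 1 from rfl]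
        exact hcons
      · show _ = (some b :: t'.1).length
        rw [hmod, hl, Nat.mod_eq_of_lt (by omega)]
      · intro e h4 h5 h6
        refine key e h4 h5 h6 fun h7 => ?_
        exfalso
        have h8 : e = (w ++ [b]).length := by
          rw [List.length_append, List.length_singleton] at h5 ⊢; omega
        have h9 := Nat.mod_eq_zero_of_dvd h6
        rw [h8, hmod, Nat.mod_eq_of_lt (by omega)] at h9
        omega
    · by_cases h4 : T = true ∧ IsB R (some b :: t'.1)
      · rw [bs_sil h3 h4] at h2
        cases h2
        refine ⟨⟨?_, ?_⟩, ?_⟩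
        · simp
        · show _ = 0
          rw [hmod, show t'.1.length + 1 = N by omega, Nat.mod_self]
        · intro e h5 h6 h7
          refine key e h5 h6 h7 fun _ => ?_
          intro i
          have h8 := h4.2 i
          rw [hcons, getD_take _ _ (by have := i.2; omega)] at h8
          exact h8
      · rw [bs_ev h3 h4] at h2; cases h2

theorem flat_get (z : List α) (hz : 0 < z.length) (m : ℕ) :
    ∀ j, j < m * z.length → ((List.replicate m z).flatten)[j]? = z[j % z.length]? := by
  induction m with
  | zero => intro j h; omega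
  | succ m ih =>
    intro j h
    rw [List.replicate_succ, List.flatten_cons]
    by_cases h1 : j < z.length
    · rw [List.getElem?_append_left h1, Nat.mod_eq_of_lt h1]
    · rw [List.getElem?_append_right (by omega), ih _ (by rw [Nat.succ_mul] at h; omega),
        ← Nat.mod_eq_sub_mod (by omega)]

theorem hs_getD {w : List α} {S : List (Option α)} {i : ℕ} (h : i < w.length) :
    (hs w S).getD i none = w[w.length - 1 - i]? := by
  rw [hs, List.getD_eq_getElem?_getD, List.getElem?_append_left (by simpa using h),
    List.getElem?_map, List.getElem?_reverse h]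
  have h1 : w.length - 1 - i < w.length := by omega
  rw [List.getElem?_eq_getElem h1]
  rfl

theorem flat_len (z : List α) (m : ℕ) : ((List.replicate m z).flatten).length = m * z.length := by
  simp

theorem bs_noCyc (hR : ∀ t, t ∣ N → t < N → ¬ Per t R) : NoCyc (bs hN R T) := by
  intro z s k hk hs0
  have hit : ∀ j : ℕ, run (bs hN R T) s (List.replicate (k * j) z).flatten = some s := by
    intro j
    induction j with
    | zero => rw [Nat.mul_zero]; rfl
    | succ j ih =>
      rw [Nat.mul_succ, List.replicate_add, List.flatten_append, run_append _ ih]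
      exact hs0
  rcases Nat.eq_zero_or_pos z.length with h0 | hz
  · rw [List.length_eq_zero_iff] at h0
    subst h0; rfl
  obtain ⟨k', rfl⟩ : ∃ k', k = k' + 1 := ⟨k - 1, by omega⟩
  obtain ⟨t, ht, -⟩ : ∃ t, run (bs hN R T) s z = some t ∧
      run (bs hN R T) t (List.replicate k' z).flatten = some s := by
    rw [List.replicate_succ, List.flatten_cons] at hs0
    exact run_append_eq_some hs0
  have hsN := s.2
  obtain ⟨⟨t1, t2⟩, -⟩ := run_inv z t ht
  by_cases hd : N ∣ z.length
  · have hNz : N ≤ z.length := Nat.le_of_dvd hz hd
    obtain ⟨⟨u1, -⟩, -⟩ := run_inv _ s hs0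
    have e1 : t.1.length = s.1.length := by
      rw [← t2, Nat.add_mod, Nat.mod_eq_zero_of_dvd hd, Nat.zero_add, Nat.mod_mod,
        Nat.mod_eq_of_lt hsN]
    rw [ht]
    congr 1
    apply Subtype.ext
    rw [t1, u1, e1, List.replicate_succ', List.flatten_append, List.flatten_singleton]
    have e2 : ∀ S : List (Option α), (z.reverse.map some ++ S).take s.1.length =
        (z.reverse.map some).take s.1.length := fun S =>
      List.take_append_of_le_length (by simp; omega)
    have e3 : ∀ v : List α, hs (v ++ z) s.1 = z.reverse.map some ++ hs v s.1 := by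
      intro v; simp [hs]
    rw [e3, e2, hs, e2]
  · exfalso
    have hfin : ∀ e, N ≤ e → N ∣ e + s.1.length → ∀ i : Fin N,
        R i = z[(e - 1 - i.val) % z.length]? := by
      intro e h1 h2 i
      have h3 := (run_inv _ s (hit e)).2 e (by omega) (by
        rw [flat_len]
        calc e ≤ 1 * e * 1 := by omega
          _ ≤ (k' + 1) * e * z.length :=
            Nat.mul_le_mul (Nat.mul_le_mul_right e (by omega)) hz) h2 i
      have h4 : ((List.replicate ((k' + 1) * e) z).flatten.take e).length = e := by
        rw [List.length_take, flat_len]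
        apply Nat.min_eq_left
        calc e ≤ 1 * e * 1 := by omega
          _ ≤ (k' + 1) * e * z.length :=
            Nat.mul_le_mul (Nat.mul_le_mul_right e (by omega)) hz
      have hi := i.2
      rw [hs_getD (by rw [h4]; omega), h4, List.getElem?_take, if_pos (by omega), flat_get z hz] at h3
      · exact h3.symm
      · calc e - 1 - i.val < e := by omega
          _ ≤ 1 * e * 1 := by omega
          _ ≤ (k' + 1) * e * z.length :=
            Nat.mul_le_mul (Nat.mul_le_mul_right e (by omega)) hz
    have hLne : NeZero z.length := ⟨hz.ne'⟩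
    refine hR (Nat.gcd N z.length) (Nat.gcd_dvd_left _ _) ?_ ?_
    · rcases Nat.lt_or_ge (Nat.gcd N z.length) N with h | h
      · exact h
      · exfalso
        apply hd
        have := Nat.le_antisymm (Nat.le_of_dvd hN (Nat.gcd_dvd_left N z.length)) h
        rw [← this]
        exact Nat.gcd_dvd_right _ _
    · -- periodicity
      have hle : ∀ i j : Fin N, i.val ≤ j.val →
          i.val % Nat.gcd N z.length = j.val % Nat.gcd N z.length → R i = R j := by
        intro i j hij hm
        have hi := i.2
        have hj := j.2
        obtain ⟨c, hc⟩ : Nat.gcd N z.length ∣ j.val - i.val :=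
          (Nat.modEq_iff_dvd' hij).mp hm
        let a : ℕ := ((((Nat.gcdA N z.length : ℤ) : ZMod z.length)) * (c : ZMod z.length)).val
        have ha : (N : ZMod z.length) * (a : ZMod z.length) = (j.val : ZMod z.length) - i.val := by
          have h1 : ((Nat.gcd N z.length : ℤ) : ZMod z.length) =
              (N : ZMod z.length) * ((Nat.gcdA N z.length : ℤ) : ZMod z.length) := by
            rw [Nat.gcd_eq_gcd_ab]
            push_cast
            rw [ZMod.natCast_self, zero_mul, add_zero]
          have h2 : (j.val : ZMod z.length) - i.val = ((j.val - i.val : ℕ) : ZMod z.length) := by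
            rw [Nat.cast_sub hij]
          rw [h2, hc, Nat.cast_mul]
          have h3 : (a : ZMod z.length) =
              ((Nat.gcdA N z.length : ℤ) : ZMod z.length) * (c : ZMod z.length) :=
            ZMod.natCast_zmod_val _
          rw [h3, ← mul_assoc, ← h1, Int.cast_natCast]
        have e1 := hfin (N + (N - s.1.length)) (by omega) ⟨2, by omega⟩ i
        have e2 := hfin (N + (N - s.1.length) + N * a) (by omega) ⟨2 + a, by
          rw [Nat.mul_add, Nat.mul_two]; omega⟩ j
        rw [e1, e2]
        congr 1
        apply (ZMod.natCast_eq_natCast_iff' _ _ _).mp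
        have b1 : N + (N - s.1.length) - 1 - i.val + (1 + i.val) = N + (N - s.1.length) := by omega
        have b2 : N + (N - s.1.length) + N * a - 1 - j.val + (1 + j.val) =
            N + (N - s.1.length) + N * a := by omega
        have c1 := congrArg (Nat.cast : ℕ → ZMod z.length) b1
        have c2 := congrArg (Nat.cast : ℕ → ZMod z.length) b2
        push_cast at c1 c2
        linear_combination c1 - c2 - ha
      intro i j hm
      rcases Nat.le_total i.val j.val with h | h
      · exact hle i j h hm
      · exact (hle j i h hm.symm).symm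


/-- the class of the block ends -/
def chi (N k : ℕ) (e : ℕ) : ℤ := if N ∣ e + k then 1 else 0

theorem win_isB {b : α} {X : List α} {k : ℕ} {Z : List (Option α)} (hZ : Z.length + 1 = N)
    (h : Z = (X.map some ++ List.replicate k none).take Z.length) :
    win N (b :: X) = R ↔ IsB R (some b :: Z) := by
  have h1 : ∀ i : Fin N, (some b :: Z).getD i.val none = (b :: X)[i.val]? := by
    intro i
    have hi := i.2
    have h2 : some b :: Z = ((b :: X).map some ++ List.replicate k none).take N := by
      rw [List.map_cons, List.cons_append, ← hZ, List.take_succ_cons, ← h]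
    rw [h2, getD_take _ _ hi, List.getD_eq_getElem?_getD]
    by_cases h3 : i.val < (b :: X).length
    · rw [List.getElem?_append_left (by simpa using h3), List.getElem?_map,
        List.getElem?_eq_getElem h3]
      rfl
    · rw [List.getElem?_append_right (by simpa using h3), List.getElem?_replicate,
        List.getElem?_eq_none (by omega)]
      split <;> rfl
  constructor
  · intro h2 i
    rw [h1 i, ← h2]; rfl
  · intro h2
    funext i
    rw [← h2 i, h1 i]; rfl

theorem cnt_formula {k : ℕ} (w : List α) : ∀ (X : List α) (Z : Pn α N),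
    Z.1 = (X.map some ++ List.replicate k none).take Z.1.length →
    (X.length + k) % N = Z.1.length →
    (cnt (bs hN R false) ⟨[], hN⟩ Z w : ℤ) - cnt (bs hN R true) ⟨[], hN⟩ Z w =
      oc N (at1 (chi N k) R) (w.reverse ++ X) - oc N (at1 (chi N k) R) X := by
  classical
  induction w with
  | nil => intro X Z _ _; simp [cnt_nil]
  | cons b w ih =>
    intro X Z h1 h2
    have hZ := Z.2
    rw [List.reverse_cons, List.append_assoc, List.singleton_append]
    have hmod : ((b :: X).length + k) % N = (Z.1.length + 1) % N := by
      rw [List.length_cons, show X.length + 1 + k = X.length + k + 1 by omega, Nat.add_mod, h2,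
        Nat.add_mod_mod]
    have hoc : oc N (at1 (chi N k) R) (b :: X) = oc N (at1 (chi N k) R) X +
        at1 (chi N k) R (X.length + 1) (win N (b :: X)) := rfl
    by_cases h3 : (some b :: Z.1).length < N
    · rw [cnt_cons_some w (bs_lt h3), cnt_cons_some w (bs_lt h3)]
      have h4 := ih (b :: X) ⟨some b :: Z.1, h3⟩ (by
        show some b :: Z.1 = _
        rw [List.map_cons, List.cons_append, show (some b :: Z.1).length = Z.1.length + 1 from rfl,
          List.take_succ_cons, ← h1]) (by
        show _ = (some b :: Z.1).length
        rw [hmod, show (some b :: Z.1).length = Z.1.length + 1 from rfl,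
          Nat.mod_eq_of_lt (show Z.1.length + 1 < N from h3)])
      have h5 : at1 (chi N k) R (X.length + 1) (win N (b :: X)) = 0 := by
        have h6 : chi N k (X.length + 1) = 0 := by
          refine if_neg fun h7 => ?_
          have h8 := Nat.mod_eq_zero_of_dvd h7
          rw [show X.length + 1 + k = (b :: X).length + k from rfl, hmod,
            Nat.mod_eq_of_lt (show Z.1.length + 1 < N from h3)] at h8
          omega
        unfold at1
        rw [h6, ite_self]
      rw [h4, hoc, h5]; ring
    · have hl : Z.1.length + 1 = N := by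
        have : (some b :: Z.1).length = Z.1.length + 1 := rfl
        omega
      have h6 : chi N k (X.length + 1) = 1 := by
        refine if_pos (Nat.dvd_of_mod_eq_zero ?_)
        rw [show X.length + 1 + k = (b :: X).length + k from rfl, hmod, hl, Nat.mod_self]
      have h4 := ih (b :: X) ⟨[], hN⟩ (by simp) (by
        show _ = 0
        rw [hmod, hl, Nat.mod_self])
      have e1 : bs hN R false Z b = none := bs_ev h3 fun h => Bool.false_ne_true h.1
      rw [cnt_cons_none w e1]
      have h7 := win_isB (R := R) (b := b) hl h1
      by_cases h8 : IsB R (some b :: Z.1)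
      · rw [cnt_cons_some w (bs_sil h3 ⟨rfl, h8⟩)]
        have h9 : at1 (chi N k) R (X.length + 1) (win N (b :: X)) = 1 := by
          unfold at1
          rw [if_pos (h7.mpr h8), h6]
        rw [hoc, h9] at h4
        push_cast
        linear_combination h4
      · rw [cnt_cons_none w (bs_ev h3 fun h => h8 h.2)]
        have h9 : at1 (chi N k) R (X.length + 1) (win N (b :: X)) = 0 := by
          unfold at1
          rw [if_neg fun h => h8 (h7.mp h)]
        rw [hoc, h9] at h4
        push_cast
        linear_combination h4

end

theorem oc_add {N : ℕ} (F G : ℕ → (Fin N → Option α) → ℤ) (X : List α) :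
    oc N (fun e W => F e W + G e W) X = oc N F X + oc N G X := by
  induction X with
  | nil => rfl
  | cons b X ih => rw [oc, oc, oc, ih]; ring

theorem oc_mul {N : ℕ} (c : ℤ) (F : ℕ → (Fin N → Option α) → ℤ) (X : List α) :
    oc N (fun e W => c * F e W) X = c * oc N F X := by
  induction X with
  | nil => simp [oc]
  | cons b X ih => rw [oc, oc, ih]; ring

theorem oc_sum {N : ℕ} {ι : Type*} (s : Finset ι) (F : ι → ℕ → (Fin N → Option α) → ℤ)
    (X : List α) : oc N (fun e W => ∑ i ∈ s, F i e W) X = ∑ i ∈ s, oc N (F i) X := by
  induction X with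
  | nil => simp [oc]
  | cons b X ih => rw [oc, ih, ← Finset.sum_add_distrib]; rfl

theorem oc_congr {N : ℕ} {F G : ℕ → (Fin N → Option α) → ℤ} {X : List α}
    (h : ∀ e W, 0 < e → F e W = G e W) : oc N F X = oc N G X := by
  induction X with
  | nil => rfl
  | cons b X ih => rw [oc, oc, ih, h _ _ (Nat.succ_pos _)]

theorem chi_known [Finite α] {N : ℕ} (hN : 0 < N) {R : Fin N → Option α}
    (hR : ∀ t, t ∣ N → t < N → ¬ Per t R) {k : ℕ} (hk : k < N) :
    KnZ fun w : List α => oc N (at1 (chi N k) R) w.reverse := by
  have hf := pn_finite α N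
  have k1 := KnZ.of_event (bs_noCyc (hN := hN) (T := false) hR) ⟨[], hN⟩
    ⟨List.replicate k none, by simpa using hk⟩
  have k2 := KnZ.of_event (bs_noCyc (hN := hN) (T := true) hR) ⟨[], hN⟩
    ⟨List.replicate k none, by simpa using hk⟩
  refine (k1.sub k2).congr fun w => ?_
  have h := cnt_formula (hN := hN) (R := R) (k := k) w [] ⟨List.replicate k none, by simpa using hk⟩
    (by simp) (by simp [Nat.mod_eq_of_lt hk])
  rw [h, List.append_nil]
  simp [oc]

theorem per_mod {N : ℕ} {ψ : ℕ → ℤ} (h : ∀ e, ψ (e + N) = ψ e) (m : ℕ) (e : ℕ) :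
    ψ (e + N * m) = ψ e := by
  induction m with
  | zero => rfl
  | succ m ih => rw [Nat.mul_succ, ← Nat.add_assoc, h, ih]

/-- **[A]** -/
theorem stA : StA := by
  classical
  intro α _ N hN R hR ψ hψ
  have h1 : KnZ fun w : List α => ∑ k ∈ Finset.range N, ψ (N - k) *
      oc N (at1 (chi N k) R) w.reverse :=
    KnZ.sum _ fun k hk => (chi_known hN hR (Finset.mem_range.mp hk)).mul_left _
  refine h1.congr fun w => ?_
  rw [Finset.sum_congr rfl fun k _ => (oc_mul _ _ _).symm, ← oc_sum]
  refine oc_congr fun e W he => ?_
  unfold at1
  by_cases hW : W = R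
  · rw [if_pos hW]
    rw [Finset.sum_congr rfl fun k _ => by rw [if_pos hW]]
    have hm := Nat.mod_lt e hN
    have hdm := Nat.div_add_mod e N
    obtain ⟨k0, hk0, hk1, m, hk2⟩ : ∃ k0, k0 < N ∧ N ∣ e + k0 ∧ ∃ m, e = (N - k0) + N * m ∨
        e + N = (N - k0) + N * m := by
      by_cases h0 : e % N = 0
      · refine ⟨0, hN, ?_, e / N, Or.inr ?_⟩
        · rw [Nat.add_zero]; exact Nat.dvd_of_mod_eq_zero h0
        · omega
      · refine ⟨N - e % N, by omega, ⟨e / N + 1, ?_⟩, e / N, Or.inl ?_⟩
        · rw [Nat.mul_succ]; omega
        · omega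
    rw [Finset.sum_eq_single k0]
    · rw [chi, if_pos hk1, mul_one]
      rcases hk2 with h | h
      · rw [h, per_mod hψ]
      · rw [← hψ e, h, per_mod hψ]
    · intro k hk hne
      rw [chi, if_neg, mul_zero]
      intro h
      apply hne
      have hk' := Finset.mem_range.mp hk
      have h3 : (e + k) % N = (e + k0) % N := by
        rw [Nat.mod_eq_zero_of_dvd h, Nat.mod_eq_zero_of_dvd hk1]
      have h4 : k % N = k0 % N := Nat.ModEq.add_left_cancel' e h3
      rwa [Nat.mod_eq_of_lt hk', Nat.mod_eq_of_lt hk0] at h4
    · intro h; exact absurd (Finset.mem_range.mpr hk0) h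
  · rw [if_neg hW]
    symm
    apply Finset.sum_eq_zero
    intro k _
    rw [if_neg hW, mul_zero]

end Vale.Agent.P329.H67
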