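import Vale.Agent.P329.H434.Nil

/-!
# P329 / all clocks `p ^ l`, all windows, values in finite abelian groups: definitions

`X` is the word read so far, last letter first; `win N X` its last `N` letters (with `none` before
the beginning); `oc` the weighted number of the positions with a given window.
-/

set_option linter.all false

namespace Vale.Agent.P329.H67

open Vale.Agent.P329

variable {α : Type}

/-- the last `N` letters, `none` before the beginning -/
def win (N : ℕ) (X : List α) : Fin N → Option α := fun i => X[i.val]?

/-- sum of `F (number of letters read) (window)` over all positions -/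
def oc (N : ℕ) (F : ℕ → (Fin N → Option α) → ℤ) : List α → ℤ
  | [] => 0
  | b :: X => oc N F X + F (X.length + 1) (win N (b :: X))

open Classical in
/-- weight `ψ` at the positions with window `R` -/
noncomputable def at1 {N : ℕ} (ψ : ℕ → ℤ) (R : Fin N → Option α) :
    ℕ → (Fin N → Option α) → ℤ := fun e W => if W = R then ψ e else 0

/-- `R` is a power of its beginning of length `t` (for `t ∣ N`) -/
def Per {N : ℕ} (t : ℕ) (R : Fin N → Option α) : Prop :=
  ∀ i j : Fin N, i.val % t = j.val % t → R i = R j

/-- [A] windows which are no proper powers, any weights periodic modulo the length -/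
def StA : Prop := ∀ (α : Type) [Finite α] (N : ℕ), 0 < N → ∀ R : Fin N → Option α,
  (∀ t, t ∣ N → t < N → ¬ Per t R) → ∀ ψ : ℕ → ℤ, (∀ e, ψ (e + N) = ψ e) →
    KnZ fun w : List α => oc N (at1 ψ R) w.reverse

/-- [B] all windows, all weights periodic modulo `p ^ l` -/
def StB (p : ℕ) : Prop := ∀ (α : Type) [Finite α] (l N : ℕ) (F : ℕ → (Fin N → Option α) → ℤ),
  (∀ e W, F (e + p ^ l) W = F e W) → KnZ fun w : List α => oc N F w.reverse

end Vale.Agent.P329.H67
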